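import Mathlib.Analysis.Distribution.SchwartzSpace.Fourier
import Mathlib.Analysis.Fourier.AddCircleMulti

/-! The Bochner-Riesz operator on `ℝ³` and the Bochner-Riesz means of Fourier series. -/

open MeasureTheory UnitAddTorus Complex
open scoped ENNReal FourierTransform

namespace Vale.Agent.N117

/-- three-dimensional euclidean space -/
abbrev R3 := EuclideanSpace ℝ (Fin 3)

/-- the symbol `(1 - |ξ|²)_+^δ` -/
noncomputable def symbol (δ : ℝ) (ξ : R3) : ℂ := ((max (1 - ‖ξ‖ ^ 2) 0 ^ δ : ℝ) : ℂ)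

/-- the Bochner-Riesz operator `T_δ` -/
noncomputable def T (δ : ℝ) (f : R3 → ℂ) (x : R3) : ℂ :=
  ∫ ξ, symbol δ ξ * 𝓕 f ξ * cexp (2 * Real.pi * I * (inner ℝ x ξ : ℝ))

/-- `δ` is above the critical order `max {3 |1/p - 1/2| - 1/2, 0}` -/
def Above (p : ℝ≥0∞) (δ : ℝ) : Prop := max (3 * |(1 / p).toReal - 1 / 2| - 1 / 2) 0 < δ

/-- the Haar probability measure of the torus `(ℝ / ℤ)^d` -/
noncomputable abbrev haar (d : ℕ) : Measure (UnitAddTorus (Fin d)) :=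
  Measure.pi fun _ => AddCircle.haarAddCircle

/-- the frequency `∑ kᵢ vᵢ` -/
noncomputable def freq {d : ℕ} (v : Fin d → R3) (k : Fin d → ℤ) : R3 := ∑ i, (k i : ℝ) • v i

/-- the trigonometric polynomial `∑_{k ∈ s} c_k e^{2πi k·x}` -/
noncomputable def trig {d : ℕ} (s : Finset (Fin d → ℤ)) (c : (Fin d → ℤ) → ℂ)
    (x : UnitAddTorus (Fin d)) : ℂ := ∑ k ∈ s, c k * mFourier k x

/-- the Bochner-Riesz means `∑_k (1 - |∑ kᵢ vᵢ|² / R²)_+^δ f^(k) e^{2πi k·x}` of the Fourier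
series of `f` -/
noncomputable def means (δ : ℝ) (v : Fin 3 → R3) (R : ℝ) (f : UnitAddTorus (Fin 3) → ℂ)
    (x : UnitAddTorus (Fin 3)) : ℂ :=
  ∑' k, symbol δ (R⁻¹ • freq v k) * mFourierCoeff f k * mFourier k x

end Vale.Agent.N117
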