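import Vale.Agent.N117.Torus
import Vale.Agent.P117.EM.Lin

/-! Assembly: from the bound for all ellipsoids to `ℝ³` and to tori. -/

open MeasureTheory UnitAddTorus Complex Filter
open scoped ENNReal NNReal FourierTransform SchwartzMap RealInnerProductSpace Topology

namespace Vale.Agent.N117

open Vale.Agent.P117.EM (bo)

theorem T_eq (δ : ℝ) (f : R3 → ℂ) : T δ f = bo δ (ContinuousLinearEquiv.refl ℝ R3) f := by
  funext x
  unfold T bo
  rw [inv_eq]
  congr 1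
  funext ξ
  rw [mul_comm, ee_comm]
  unfold ee
  congr 2
  push_cast
  ring

theorem Above.conv {p : ℝ≥0∞} {δ : ℝ} (h : Above p δ) :
    max (3 * |1 / p.toReal - 1 / 2| - 1 / 2) 0 < δ := by
  have h1 : (1 / p).toReal = 1 / p.toReal := by simp
  rwa [Above, h1] at h

theorem tori {p : ℝ≥0∞} (hp : 1 ≤ p) (hp' : p ≠ ∞) {δ : ℝ} (hδ : Above p δ) {C : ℝ≥0}
    (hC : ∀ (A : R3 ≃L[ℝ] R3) (f : 𝓢(R3, ℂ)),
      eLpNorm (bo δ A f) p volume ≤ C * eLpNorm f p volume) :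
    ∃ K : ℝ≥0,
      (∀ (d : ℕ) (v : Fin d → R3) (s : Finset (Fin d → ℤ)) (c : (Fin d → ℤ) → ℂ),
        eLpNorm (trig s fun k => symbol δ (freq v k) * c k) p (haar d)
          ≤ K * eLpNorm (trig s c) p (haar d)) ∧
      ∀ v : Fin 3 → R3, LinearIndependent ℝ v →
        ∀ f : UnitAddTorus (Fin 3) → ℂ, MemLp f p (haar 3) →
          (∀ R, 0 < R → eLpNorm (means δ v R f) p (haar 3) ≤ K * eLpNorm f p (haar 3)) ∧
          Tendsto (fun R => eLpNorm (means δ v R f - f) p (haar 3)) atTop (𝓝 0) := by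
  have hδ0 : 0 < δ := (le_max_right _ _).trans_lt hδ
  have : Fact (1 ≤ p) := ⟨hp⟩
  obtain ⟨K, hK⟩ := transfer hp hp' (continuous_symbol hδ0) (norm_symbol_le hδ0) (C := C)
    fun N hN f => hC (LinearEquiv.smulOfNeZero ℝ R3 N⁻¹ (inv_ne_zero hN.ne')).toContinuousLinearEquiv f
  exact ⟨K, hK, fun v hv f hf => means_main p hp' hδ0 (hK 3) hv hf⟩

end Vale.Agent.N117
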