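import Vale.Agent.N117.Defs
import Mathlib.Analysis.Fourier.Inversion
import Mathlib.Analysis.Calculus.BumpFunction.FiniteDimension
import Mathlib.Analysis.InnerProductSpace.Calculus

/-! A multiplier applied to a modulated bump. -/

open MeasureTheory UnitAddTorus Complex Filter
open scoped ENNReal NNReal FourierTransform SchwartzMap RealInnerProductSpace Topology

namespace Vale.Agent.N117

/-- the character `e^{2πi x·ξ}` -/
noncomputable def ee (x ξ : R3) : ℂ := cexp (((2 * Real.pi * ⟪x, ξ⟫ : ℝ) : ℂ) * I)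

theorem norm_ee (x ξ : R3) : ‖ee x ξ‖ = 1 := norm_exp_ofReal_mul_I _

theorem ee_add (x y ξ : R3) : ee (x + y) ξ = ee x ξ * ee y ξ := by
  unfold ee
  rw [← Complex.exp_add, inner_add_left]
  congr 1
  push_cast
  ring

theorem ee_comm (x ξ : R3) : ee x ξ = ee ξ x := by
  unfold ee
  rw [real_inner_comm]

theorem contDiff_ee (ξ : R3) : ContDiff ℝ (⊤ : ℕ∞) fun x => ee x ξ := by
  unfold ee
  refine ContDiff.cexp (ContDiff.mul (ofRealCLM.contDiff.comp ?_) contDiff_const)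
  exact contDiff_const.mul (contDiff_id.inner ℝ contDiff_const)

theorem continuous_ee (ξ : R3) : Continuous fun x => ee x ξ := (contDiff_ee ξ).continuous

theorem inv_eq (g : R3 → ℂ) (y : R3) : 𝓕⁻ g y = ∫ ξ, ee ξ y * g ξ := by
  rw [Real.fourierInv_eq']
  rfl

theorem integrable_ee_mul {g : R3 → ℂ} (hg : Integrable g) (y : R3) :
    Integrable fun ξ => ee ξ y * g ξ :=
  hg.bdd_mul (c := 1) (continuous_ee y).aestronglyMeasurable
    (Eventually.of_forall fun ξ => (norm_ee ξ y).le)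

theorem fourier_mod {ι : Type} (φ : 𝓢(R3, ℂ)) (s : Finset ι) (a : ι → ℂ) (l : ι → R3) (ξ : R3) :
    𝓕 (fun y => φ y * ∑ k ∈ s, a k * ee y (l k)) ξ = ∑ k ∈ s, a k * 𝓕 (φ : R3 → ℂ) (ξ - l k) := by
  have h1 : ∀ (g : R3 → ℂ) (w : R3), 𝓕 g w = ∫ y, ee y (-w) * g y := by
    intro g w
    rw [Real.fourier_eq']
    congr 1
    funext y
    unfold ee
    rw [inner_neg_right, smul_eq_mul]
    congr 4
    ring
  simp only [h1]
  rw [Finset.sum_congr rfl fun k _ => (integral_const_mul (a k) _).symm,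
    ← integral_finsetSum _ fun k _ => (integrable_ee_mul φ.integrable _).const_mul (a k)]
  congr 1
  funext y
  rw [Finset.mul_sum, Finset.mul_sum]
  refine Finset.sum_congr rfl fun k _ => ?_
  rw [neg_sub, sub_eq_add_neg, ee_comm y (_ + _), ee_add, ee_comm (l k), ee_comm (-ξ)]
  ring

variable {m : R3 → ℂ} {B : ℝ}

/-- the error made by freezing the symbol -/
noncomputable def err (m : R3 → ℂ) (φ : 𝓢(R3, ℂ)) (l : R3) (N : ℝ) : ℝ :=
  ∫ η, ‖m (N⁻¹ • η + l) - m l‖ * ‖𝓕 (φ : R3 → ℂ) η‖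

theorem integrable_hat (φ : 𝓢(R3, ℂ)) : Integrable (𝓕 (φ : R3 → ℂ)) := (𝓕 φ : 𝓢(R3, ℂ)).integrable

theorem tendsto_err (hm : Continuous m) (hB : ∀ ξ, ‖m ξ‖ ≤ B) (φ : 𝓢(R3, ℂ)) (l : R3) :
    Tendsto (fun n : ℕ => err m φ l ((n : ℝ) + 1)) atTop (𝓝 0) := by
  have hc : Continuous (𝓕 (φ : R3 → ℂ)) := (𝓕 φ : 𝓢(R3, ℂ)).continuous
  have h := tendsto_integral_of_dominated_convergence (μ := (volume : Measure R3))
    (F := fun (n : ℕ) η => ‖m (((n : ℝ) + 1)⁻¹ • η + l) - m l‖ * ‖𝓕 (φ : R3 → ℂ) η‖)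
    (f := fun _ => (0 : ℝ)) (fun η => (B + B) * ‖𝓕 (φ : R3 → ℂ) η‖)
    (fun n => Continuous.aestronglyMeasurable (by fun_prop))
    ((integrable_hat φ).norm.const_mul _)
    (fun n => Eventually.of_forall fun η => by
      rw [Real.norm_of_nonneg (by positivity)]
      gcongr
      exact (norm_sub_le _ _).trans (add_le_add (hB _) (hB _)))
    (Eventually.of_forall fun η => by
      have h1 : Tendsto (fun n : ℕ => ((n : ℝ) + 1)⁻¹ • η + l) atTop (𝓝 l) := by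
        have h2 : Tendsto (fun n : ℕ => ((n : ℝ) + 1)⁻¹) atTop (𝓝 0) :=
          tendsto_inv_atTop_zero.comp (tendsto_natCast_atTop_atTop.atTop_add tendsto_const_nhds)
        simpa using (h2.smul_const η).add_const l
      have h3 := (((hm.tendsto l).comp h1).sub_const (m l)).norm.mul_const ‖𝓕 (φ : R3 → ℂ) η‖
      simpa using h3)
  simpa [err] using h

theorem integrable_m (hm : Continuous m) (hB : ∀ ξ, ‖m ξ‖ ≤ B) (φ : 𝓢(R3, ℂ)) (N : ℝ) (l : R3) :
    Integrable fun ξ => m (N⁻¹ • ξ) * 𝓕 (φ : R3 → ℂ) (ξ - l) :=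
  ((integrable_hat φ).comp_sub_right l).bdd_mul (c := B)
    (Continuous.aestronglyMeasurable (by fun_prop)) (Eventually.of_forall fun _ => hB _)

theorem single_bound (hm : Continuous m) (hB : ∀ ξ, ‖m ξ‖ ≤ B) (φ : 𝓢(R3, ℂ)) (l : R3) {N : ℝ}
    (hN : N ≠ 0) (y : R3) :
    ‖(∫ ξ, ee ξ y * (m (N⁻¹ • ξ) * 𝓕 (φ : R3 → ℂ) (ξ - N • l))) - φ y * (m l * ee y (N • l))‖
      ≤ err m φ l N := by
  have h1 : φ y = ∫ η, ee η y * 𝓕 (φ : R3 → ℂ) η := by
    rw [← inv_eq, φ.continuous.fourierInv_fourier_eq φ.integrable (integrable_hat φ)]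
  have h2 := (integrable_ee_mul (integrable_m hm hB φ N (N • l)) y).comp_add_right (N • l)
  rw [← integral_add_right_eq_self _ (N • l), h1, ← integral_mul_const,
    ← integral_sub h2 ((integrable_ee_mul (integrable_hat φ) y).mul_const _)]
  refine (norm_integral_le_integral_norm _).trans (le_of_eq ?_)
  unfold err
  congr 1
  funext η
  rw [add_sub_cancel_right, smul_add, inv_smul_smul₀ hN, ee_add, ee_comm (N • l) y]
  have : ee η y * ee y (N • l) * (m (N⁻¹ • η + l) * 𝓕 (φ : R3 → ℂ) η)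
      - ee η y * 𝓕 (φ : R3 → ℂ) η * (m l * ee y (N • l))
      = ee η y * ee y (N • l) * ((m (N⁻¹ • η + l) - m l) * 𝓕 (φ : R3 → ℂ) η) := by ring
  rw [this, norm_mul, norm_mul, norm_ee, norm_ee, norm_mul, one_mul, one_mul]

/-- the multiplier acts on a modulated bump almost by freezing the symbol -/
theorem mod_bound {ι : Type} (hm : Continuous m) (hB : ∀ ξ, ‖m ξ‖ ≤ B) (φ : 𝓢(R3, ℂ))
    (s : Finset ι) (a : ι → ℂ) (l : ι → R3) {N : ℝ} (hN : N ≠ 0) (y : R3) :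
    ‖𝓕⁻ (fun ξ => m (N⁻¹ • ξ) * 𝓕 (fun y => φ y * ∑ k ∈ s, a k * ee y (N • l k)) ξ) y
      - φ y * ∑ k ∈ s, m (l k) * a k * ee y (N • l k)‖ ≤ ∑ k ∈ s, ‖a k‖ * err m φ (l k) N := by
  have h1 : 𝓕⁻ (fun ξ => m (N⁻¹ • ξ) * 𝓕 (fun y => φ y * ∑ k ∈ s, a k * ee y (N • l k)) ξ) y
      = ∑ k ∈ s, a k * ∫ ξ, ee ξ y * (m (N⁻¹ • ξ) * 𝓕 (φ : R3 → ℂ) (ξ - N • l k)) := by
    rw [inv_eq, Finset.sum_congr rfl fun k _ => (integral_const_mul (a k) _).symm,
      ← integral_finsetSum _ fun k _ =>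
        (integrable_ee_mul (integrable_m hm hB φ N _) y).const_mul (a k)]
    congr 1
    funext ξ
    rw [fourier_mod, Finset.mul_sum, Finset.mul_sum]
    exact Finset.sum_congr rfl fun k _ => by ring
  rw [h1, Finset.mul_sum, ← Finset.sum_sub_distrib]
  refine (norm_sum_le _ _).trans (Finset.sum_le_sum fun k _ => ?_)
  refine le_trans (le_of_eq ?_)
    (mul_le_mul_of_nonneg_left (single_bound hm hB φ (l k) hN y) (norm_nonneg _))
  rw [← norm_mul]
  congr 1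
  ring

/-- a smooth bump -/
theorem exists_bump : ∃ φ : 𝓢(R3, ℂ), HasCompactSupport φ ∧ ∀ y ∈ Metric.ball (0 : R3) 1, φ y = 1 := by
  let b : ContDiffBump (0 : R3) := ⟨1, 2, one_pos, one_lt_two⟩
  have h1 : HasCompactSupport fun y => ((b y : ℝ) : ℂ) :=
    b.hasCompactSupport.comp_left (g := fun r : ℝ => (r : ℂ)) ofReal_zero
  refine ⟨h1.toSchwartzMap (ofRealCLM.contDiff.comp b.contDiff), h1, fun y hy => ?_⟩
  show ((b y : ℝ) : ℂ) = 1
  rw [b.one_of_mem_closedBall (Metric.ball_subset_closedBall hy), ofReal_one]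

end Vale.Agent.N117
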