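import Vale.Agent.N117.Trans

/-! Bochner-Riesz means of Fourier series in `L^p` of the three-dimensional torus. -/

open MeasureTheory UnitAddTorus Complex Filter
open scoped ENNReal NNReal FourierTransform SchwartzMap RealInnerProductSpace Topology

namespace Vale.Agent.N117

variable {d : ℕ}

theorem symbol_eq_zero {δ : ℝ} (hδ : 0 < δ) {ξ : R3} (h : 1 ≤ ‖ξ‖) : symbol δ ξ = 0 := by
  unfold symbol
  rw [max_eq_right (by nlinarith), Real.zero_rpow hδ.ne', ofReal_zero]

theorem continuous_symbol {δ : ℝ} (hδ : 0 < δ) : Continuous (symbol δ) :=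
  continuous_ofReal.comp ((by fun_prop : Continuous fun ξ : R3 => max (1 - ‖ξ‖ ^ 2) 0).rpow_const
    fun _ => Or.inr hδ.le)

theorem norm_symbol_le {δ : ℝ} (hδ : 0 < δ) (ξ : R3) : ‖symbol δ ξ‖ ≤ 1 := by
  unfold symbol
  rw [norm_real, Real.norm_of_nonneg (by positivity)]
  exact Real.rpow_le_one (le_max_right _ _) (max_le (by nlinarith [norm_nonneg ξ]) zero_le_one) hδ.le

theorem freq_smul (v : Fin d → R3) (r : ℝ) (k : Fin d → ℤ) :
    freq (fun i => r • v i) k = r • freq v k := by
  simp only [freq, Finset.smul_sum, smul_comm r]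

/-- a lattice has finitely many points in a ball -/
theorem finite_freq {v : Fin d → R3} (hv : LinearIndependent ℝ v) (R : ℝ) :
    {k : Fin d → ℤ | ‖freq v k‖ < R}.Finite := by
  obtain ⟨K, -, hK⟩ := (Fintype.linearCombination ℝ v).exists_antilipschitzWith
    (LinearMap.ker_eq_bot.2 (linearIndependent_iff_injective_fintypeLinearCombination.1 hv))
  obtain ⟨M, hM⟩ := exists_nat_ge (K * R)
  refine (Set.Finite.pi' fun _ : Fin d => Set.finite_Icc (-M : ℤ) M).subset fun k hk i => ?_
  have h1 := hK.le_mul_norm (map_zero _) fun i => (k i : ℝ)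
  have h2 : Fintype.linearCombination ℝ v (fun i => (k i : ℝ)) = freq v k := by
    simp [Fintype.linearCombination_apply, freq]
  rw [h2] at h1
  have h3 : |(k i : ℝ)| ≤ M := by
    have h4 := norm_le_pi_norm (fun i => (k i : ℝ)) i
    have h5 : (K : ℝ) * ‖freq v k‖ ≤ K * R := mul_le_mul_of_nonneg_left (le_of_lt hk) K.2
    rw [Real.norm_eq_abs] at h4
    linarith
  rw [abs_le] at h3
  exact ⟨by exact_mod_cast h3.1, by exact_mod_cast h3.2⟩

theorem coeff_eq (f : UnitAddTorus (Fin d) → ℂ) (k : Fin d → ℤ) :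
    mFourierCoeff f k = ∫ t, mFourier (-k) t * f t ∂haar d := rfl

theorem coeff_mFourier (k l : Fin d → ℤ) :
    mFourierCoeff (mFourier l) k = if k = l then 1 else 0 := by
  rw [← orthonormal_iff_ite.1 orthonormal_mFourier k l, ContinuousMap.inner_toLp, coeff_eq]
  simp only [mFourier_neg, mul_comm]
  rfl

variable (p : ℝ≥0∞) [hp : Fact (1 ≤ p)]

theorem integrable_coeff {f : UnitAddTorus (Fin d) → ℂ} (hf : Integrable f (haar d))
    (k : Fin d → ℤ) : Integrable (fun t => mFourier (-k) t * f t) (haar d) :=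
  hf.bdd_mul (c := 1) (mFourier (-k)).continuous.aestronglyMeasurable
    (Eventually.of_forall fun t => (norm_mFourier _ t).le)

/-- the Fourier coefficient as a continuous linear form -/
noncomputable def coeffL (k : Fin d → ℤ) : Lp ℂ p (haar d) →L[ℂ] ℂ :=
  LinearMap.mkContinuous
    { toFun := fun f => mFourierCoeff f k
      map_add' := fun f g => by
        simp only [coeff_eq]
        rw [← integral_add (integrable_coeff ((Lp.memLp f).integrable hp.out) k)
          (integrable_coeff ((Lp.memLp g).integrable hp.out) k)]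
        refine integral_congr_ae ?_
        filter_upwards [Lp.coeFn_add f g] with t ht
        rw [ht, Pi.add_apply, mul_add]
      map_smul' := fun a f => by
        simp only [coeff_eq, RingHom.id_apply, smul_eq_mul]
        rw [← integral_const_mul]
        refine integral_congr_ae ?_
        filter_upwards [Lp.coeFn_smul a f] with t ht
        rw [ht, Pi.smul_apply, smul_eq_mul, mul_left_comm] } 1 fun f => by
    simp only [LinearMap.coe_mk, AddHom.coe_mk, coeff_eq, one_mul]
    refine (norm_integral_le_lintegral_norm _).trans ?_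
    simp only [norm_mul, norm_mFourier, one_mul, ofReal_norm]
    rw [← eLpNorm_one_eq_lintegral_enorm, Lp.norm_def]
    exact ENNReal.toReal_mono (Lp.eLpNorm_ne_top f)
      (eLpNorm_le_eLpNorm_of_exponent_le hp.out (Lp.aestronglyMeasurable f))

/-- the monomials in `L^p` -/
noncomputable def mono (k : Fin d → ℤ) : Lp ℂ p (haar d) :=
  ContinuousMap.toLp p (haar d) ℂ (mFourier k)

theorem coeffL_mono (k l : Fin d → ℤ) : coeffL p k (mono p l) = if k = l then 1 else 0 := by
  rw [← coeff_mFourier]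
  refine integral_congr_ae ?_
  filter_upwards [ContinuousMap.coeFn_toLp (p := p) (𝕜 := ℂ) (haar d) (mFourier l)] with t ht
  rw [mono, ht]

theorem coe_sum_mono (s : Finset (Fin d → ℤ)) (c : (Fin d → ℤ) → ℂ) :
    (∑ k ∈ s, c k • mono p k : Lp ℂ p (haar d)) =ᵐ[haar d] trig s c := by
  have h1 : (∑ k ∈ s, c k • mono p k : Lp ℂ p (haar d))
      = ContinuousMap.toLp p (haar d) ℂ (∑ k ∈ s, c k • mFourier k) := by
    simp only [mono, map_sum, map_smul]
  rw [h1]
  refine (ContinuousMap.coeFn_toLp (haar d) _).trans (Eventually.of_forall fun t => ?_)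
  simp [trig]

/-- a multiplier with finitely many nonzero values -/
noncomputable def mult (s : Finset (Fin d → ℤ)) (w : (Fin d → ℤ) → ℂ) :
    Lp ℂ p (haar d) →L[ℂ] Lp ℂ p (haar d) :=
  ∑ k ∈ s, (w k • coeffL p k).smulRight (mono p k)

theorem mult_apply (s : Finset (Fin d → ℤ)) (w : (Fin d → ℤ) → ℂ) (f : Lp ℂ p (haar d)) :
    mult p s w f = ∑ k ∈ s, (w k * mFourierCoeff f k) • mono p k := by
  simp only [mult, _root_.sum_apply, ContinuousLinearMap.smulRight_apply,
    _root_.smul_apply, smul_eq_mul]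
  rfl

theorem mult_mono {s : Finset (Fin d → ℤ)} {w : (Fin d → ℤ) → ℂ} (hw : ∀ k ∉ s, w k = 0)
    (l : Fin d → ℤ) : mult p s w (mono p l) = w l • mono p l := by
  classical
  simp only [mult, _root_.sum_apply, ContinuousLinearMap.smulRight_apply,
    _root_.smul_apply, smul_eq_mul, coeffL_mono]
  rw [Finset.sum_eq_single l (fun k _ hk => by simp [hk]) (fun hl => by simp [hw l hl])]
  simp

theorem dense_induction (hp' : p ≠ ∞) {Q : Lp ℂ p (haar d) → Prop} (hQ : IsClosed {f | Q f})
    (h : ∀ (s : Finset (Fin d → ℤ)) (c : (Fin d → ℤ) → ℂ), Q (∑ k ∈ s, c k • mono p k))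
    (f : Lp ℂ p (haar d)) : Q f := by
  have h1 : (Submodule.span ℂ (Set.range (mono p (d := d)))).topologicalClosure = ⊤ :=
    span_mFourierLp_closure_eq_top hp'
  have h2 : f ∈ closure (Submodule.span ℂ (Set.range (mono p (d := d))) : Set _) := by
    rw [← Submodule.topologicalClosure_coe, h1]
    trivial
  refine hQ.closure_subset_iff.2 (fun g hg => ?_) h2
  obtain ⟨c, rfl⟩ := Finsupp.mem_span_range_iff_exists_finsupp.1 hg
  exact h c.support c

theorem mult_bound (hp' : p ≠ ∞) {s : Finset (Fin d → ℤ)} {w : (Fin d → ℤ) → ℂ}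
    (hw : ∀ k ∉ s, w k = 0) {K : ℝ≥0} (hK : ∀ (s : Finset (Fin d → ℤ)) (c : (Fin d → ℤ) → ℂ),
      eLpNorm (trig s fun k => w k * c k) p (haar d) ≤ K * eLpNorm (trig s c) p (haar d))
    (f : Lp ℂ p (haar d)) : ‖mult p s w f‖ ≤ K * ‖f‖ := by
  refine dense_induction p hp' (Q := fun f => ‖mult p s w f‖ ≤ K * ‖f‖)
    (isClosed_le (by fun_prop) (by fun_prop)) (fun s' c => ?_) f
  have h1 : mult p s w (∑ k ∈ s', c k • mono p k) = ∑ k ∈ s', (w k * c k) • mono p k := by
    simp only [map_sum, map_smul, mult_mono p hw, smul_smul, mul_comm]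
  rw [h1, Lp.norm_def, Lp.norm_def, eLpNorm_congr_ae (coe_sum_mono p s' _),
    eLpNorm_congr_ae (coe_sum_mono p s' _), ← ENNReal.coe_toReal, ← ENNReal.toReal_mul]
  refine ENNReal.toReal_mono (ENNReal.mul_ne_top ENNReal.coe_ne_top ?_) (hK s' c)
  rw [← eLpNorm_congr_ae (coe_sum_mono p s' _)]
  exact Lp.eLpNorm_ne_top _

/-- uniformly bounded multipliers that tend to one converge strongly to the identity -/
theorem mult_tendsto (hp' : p ≠ ∞) {s : ℝ → Finset (Fin d → ℤ)} {w : ℝ → (Fin d → ℤ) → ℂ}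
    (hw : ∀ᶠ R in atTop, ∀ k ∉ s R, w R k = 0) {K : ℝ≥0}
    (hK : ∀ᶠ R in atTop, ∀ f, ‖mult p (s R) (w R) f‖ ≤ K * ‖f‖)
    (h1 : ∀ k, Tendsto (fun R => w R k) atTop (𝓝 1)) (f : Lp ℂ p (haar d)) :
    Tendsto (fun R => mult p (s R) (w R) f) atTop (𝓝 f) := by
  refine dense_induction p hp' (Q := fun f => Tendsto (fun R => mult p (s R) (w R) f) atTop (𝓝 f))
    ?_ (fun s' c => ?_) f
  · refine isClosed_of_closure_subset fun g hg => ?_
    rw [Set.mem_ofPred_eq, Metric.tendsto_nhds]
    intro ε hε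
    obtain ⟨u, hu, hgu⟩ := Metric.mem_closure_iff.1 hg (ε / (K + 2)) (by positivity)
    filter_upwards [hK, Metric.tendsto_nhds.1 hu (ε / (K + 2)) (by positivity)] with R h2 h3
    have h4 := h2 (g - u)
    rw [map_sub, ← dist_eq_norm, ← dist_eq_norm] at h4
    have h5 := dist_triangle4 (mult p (s R) (w R) g) (mult p (s R) (w R) u) u g
    have h6 : (K : ℝ) * dist g u ≤ K * (ε / (K + 2)) := by gcongr
    have h7 : ε = K * (ε / (K + 2)) + ε / (K + 2) + ε / (K + 2) := by field_simp; ring
    rw [dist_comm u g] at h5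
    linarith
  · have h2 := tendsto_finsetSum s' fun k _ => ((h1 k).smul_const (mono p k)).const_smul (c k)
    simp only [one_smul] at h2
    refine h2.congr' ?_
    filter_upwards [hw] with R hR
    simp only [map_sum, map_smul, mult_mono p hR]

/-- the means of a function in `L^p` -/
theorem means_eq {δ : ℝ} {v : Fin 3 → R3} {R : ℝ} {s : Finset (Fin 3 → ℤ)}
    (hs : ∀ k ∉ s, symbol δ (R⁻¹ • freq v k) = 0) {f : UnitAddTorus (Fin 3) → ℂ}
    (hf : MemLp f p (haar 3)) :
    mult p s (fun k => symbol δ (R⁻¹ • freq v k)) (hf.toLp f) =ᵐ[haar 3] means δ v R f := by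
  rw [mult_apply]
  refine (coe_sum_mono p s _).trans (Eventually.of_forall fun x => ?_)
  unfold means trig
  rw [tsum_eq_sum (s := s) fun k hk => by rw [hs k hk, zero_mul, zero_mul]]
  refine Finset.sum_congr rfl fun k _ => ?_
  have h1 : mFourierCoeff (hf.toLp f) k = mFourierCoeff f k := by
    rw [coeff_eq, coeff_eq]
    refine integral_congr_ae ?_
    filter_upwards [hf.coeFn_toLp] with t ht
    rw [ht]
  rw [← h1]

theorem means_main (hp' : p ≠ ∞) {δ : ℝ} (hδ : 0 < δ) {K : ℝ≥0}
    (hK : ∀ (v : Fin 3 → R3) (s : Finset (Fin 3 → ℤ)) (c : (Fin 3 → ℤ) → ℂ),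
      eLpNorm (trig s fun k => symbol δ (freq v k) * c k) p (haar 3)
        ≤ K * eLpNorm (trig s c) p (haar 3))
    {v : Fin 3 → R3} (hv : LinearIndependent ℝ v) {f : UnitAddTorus (Fin 3) → ℂ}
    (hf : MemLp f p (haar 3)) :
    (∀ R, 0 < R → eLpNorm (means δ v R f) p (haar 3) ≤ K * eLpNorm f p (haar 3)) ∧
      Tendsto (fun R => eLpNorm (means δ v R f - f) p (haar 3)) atTop (𝓝 0) := by
  have hw : ∀ R, 0 < R → ∀ k ∉ (finite_freq hv R).toFinset, symbol δ (R⁻¹ • freq v k) = 0 := by
    intro R hR k hk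
    refine symbol_eq_zero hδ ?_
    rw [Set.Finite.mem_toFinset, Set.mem_ofPred_eq, not_lt] at hk
    rw [norm_smul, norm_inv, Real.norm_of_nonneg hR.le, ← div_eq_inv_mul, one_le_div hR]
    exact hk
  have hb : ∀ R, 0 < R → ∀ g, ‖mult p (finite_freq hv R).toFinset
      (fun k => symbol δ (R⁻¹ • freq v k)) g‖ ≤ K * ‖g‖ := fun R hR =>
    mult_bound p hp' (hw R hR) fun s c => by simpa only [freq_smul] using hK (fun i => R⁻¹ • v i) s c
  constructor
  · intro R hR
    have h1 := ENNReal.ofReal_le_ofReal (hb R hR (hf.toLp f))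
    rw [ENNReal.ofReal_mul (NNReal.coe_nonneg K), ofReal_norm, ofReal_norm, Lp.enorm_def, Lp.enorm_def,
      eLpNorm_congr_ae (means_eq p (hw R hR) hf), eLpNorm_congr_ae hf.coeFn_toLp] at h1
    simpa using h1
  · have h1 := mult_tendsto p hp' ((eventually_gt_atTop 0).mono hw) ((eventually_gt_atTop 0).mono hb)
      (fun k => by
        have h2 : Tendsto (fun R : ℝ => R⁻¹ • freq v k) atTop (𝓝 0) := by
          simpa using (tendsto_inv_atTop_zero (𝕜 := ℝ)).smul_const (freq v k)
        have h3 := ((continuous_symbol hδ).tendsto 0).comp h2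
        rwa [show symbol δ 0 = 1 by simp [symbol]] at h3) (hf.toLp f)
    rw [Lp.tendsto_Lp_iff_tendsto_eLpNorm'] at h1
    refine h1.congr' ?_
    filter_upwards [eventually_gt_atTop 0] with R hR
    exact eLpNorm_congr_ae ((means_eq p (hw R hR) hf).sub hf.coeFn_toLp)

end Vale.Agent.N117
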