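import Vale.Agent.N117.Mod

/-! Transference of a multiplier bound from `ℝ³` to trigonometric polynomials on tori. -/

open MeasureTheory UnitAddTorus Complex Filter
open scoped ENNReal NNReal FourierTransform SchwartzMap RealInnerProductSpace Topology

namespace Vale.Agent.N117

variable {d : ℕ}

/-- the homomorphism `ℝ³ → (ℝ / ℤ)^d` dual to `freq v`, at scale `N` -/
noncomputable def rho (v : Fin d → R3) (N : ℝ) (y : R3) : UnitAddTorus (Fin d) :=
  fun i => ((N * ⟪y, v i⟫ : ℝ) : UnitAddCircle)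

theorem continuous_rho (v : Fin d → R3) (N : ℝ) : Continuous (rho v N) :=
  continuous_pi fun _ => (AddCircle.continuous_mk' 1).comp (by fun_prop)

theorem mFourier_add_pt (k : Fin d → ℤ) (x t : UnitAddTorus (Fin d)) :
    mFourier k (x + t) = mFourier k x * mFourier k t := by
  simp only [mFourier, ContinuousMap.coe_mk, Pi.add_apply, fourier_apply, smul_add,
    AddCircle.toCircle_add, Circle.coe_mul, Finset.prod_mul_distrib]

theorem mFourier_rho (v : Fin d → R3) (N : ℝ) (y : R3) (k : Fin d → ℤ) :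
    mFourier k (rho v N y) = ee y (N • freq v k) := by
  simp only [mFourier, ContinuousMap.coe_mk, rho, fourier_coe_apply, ee, freq, inner_smul_right,
    inner_sum]
  rw [← Complex.exp_sum]
  congr 1
  push_cast
  simp only [Finset.mul_sum, Finset.sum_mul]
  exact Finset.sum_congr rfl fun i _ => by ring

theorem norm_mFourier (k : Fin d → ℤ) (t : UnitAddTorus (Fin d)) : ‖mFourier k t‖ = 1 := by
  simp only [mFourier, fourier_apply, ContinuousMap.coe_mk, norm_prod, Circle.norm_coe,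
    Finset.prod_const_one]

theorem trig_rho (s : Finset (Fin d → ℤ)) (c : (Fin d → ℤ) → ℂ) (v : Fin d → R3) (N : ℝ) (y : R3)
    (t : UnitAddTorus (Fin d)) :
    trig s c (rho v N y + t) = ∑ k ∈ s, c k * mFourier k t * ee y (N • freq v k) := by
  unfold trig
  refine Finset.sum_congr rfl fun k _ => ?_
  rw [mFourier_add_pt, mFourier_rho]
  ring

theorem continuous_trig (s : Finset (Fin d → ℤ)) (c : (Fin d → ℤ) → ℂ) : Continuous (trig s c) :=
  continuous_finsetSum _ fun k _ => continuous_const.mul (mFourier k).continuous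

/-- averaging over the translations of the torus -/
theorem average {g : R3 → ℝ≥0∞} (hg : Measurable g) {F : UnitAddTorus (Fin d) → ℝ≥0∞}
    (hF : Measurable F) (ν : Measure R3) [SFinite ν] (v : Fin d → R3) (N : ℝ) :
    ∫⁻ t, ∫⁻ y, g y * F (rho v N y + t) ∂ν ∂haar d = (∫⁻ y, g y ∂ν) * ∫⁻ t, F t ∂haar d := by
  rw [lintegral_lintegral_swap, ← lintegral_mul_const _ hg]
  · refine lintegral_congr fun y => ?_
    rw [lintegral_const_mul _ (show Measurable fun x => F (rho v N y + x) from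
      hF.comp (measurable_const_add _)), lintegral_add_left_eq_self]
  · exact ((hg.comp measurable_snd).mul (hF.comp
      (((continuous_rho v N).measurable.comp measurable_snd).add measurable_fst))).aemeasurable

variable {m : R3 → ℂ} {B : ℝ}

theorem transfer_lintegral {q : ℝ} (hq : 1 ≤ q) (hm : Continuous m) (hB : ∀ ξ, ‖m ξ‖ ≤ B)
    {C : ℝ≥0∞} (h : ∀ N : ℝ, 0 < N → ∀ f : 𝓢(R3, ℂ),
      ∫⁻ y, ‖𝓕⁻ (fun ξ => m (N⁻¹ • ξ) * 𝓕 (f : R3 → ℂ) ξ) y‖ₑ ^ q ≤ C * ∫⁻ y, ‖f y‖ₑ ^ q)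
    (φ : 𝓢(R3, ℂ)) (hφ : HasCompactSupport φ) (hφ1 : ∀ y ∈ Metric.ball (0 : R3) 1, φ y = 1)
    (v : Fin d → R3) (s : Finset (Fin d → ℤ)) (c : (Fin d → ℤ) → ℂ) :
    volume (Metric.ball (0 : R3) 1) * ∫⁻ t, ‖trig s (fun k => m (freq v k) * c k) t‖ₑ ^ q ∂haar d
      ≤ 2 ^ (q - 1) * (C * ((∫⁻ y, ‖φ y‖ₑ ^ q) * ∫⁻ t, ‖trig s c t‖ₑ ^ q ∂haar d)) := by
  have hq0 : 0 < q := by linarith
  have mT : ∀ c : (Fin d → ℤ) → ℂ, Measurable fun t => ‖trig s c t‖ₑ ^ q := fun c =>
    (continuous_trig s c).enorm.measurable.pow_const q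
  have mφ : Measurable fun y => ‖φ y‖ₑ ^ q := φ.continuous.enorm.measurable.pow_const q
  have key : ∀ N : ℝ, 0 < N →
      volume (Metric.ball (0 : R3) 1) * ∫⁻ t, ‖trig s (fun k => m (freq v k) * c k) t‖ₑ ^ q ∂haar d
      ≤ 2 ^ (q - 1) * (C * ((∫⁻ y, ‖φ y‖ₑ ^ q) * ∫⁻ t, ‖trig s c t‖ₑ ^ q ∂haar d)
        + ENNReal.ofReal (∑ k ∈ s, ‖c k‖ * err m φ (freq v k) N) ^ q
          * volume (Metric.ball (0 : R3) 1)) := by
    intro N hN
    obtain ⟨η, hη⟩ : ∃ η, η = ENNReal.ofReal (∑ k ∈ s, ‖c k‖ * err m φ (freq v k) N) := ⟨_, rfl⟩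
    rw [← hη]
    have h1 := average (g := fun _ => 1) measurable_const (mT fun k => m (freq v k) * c k)
      (volume.restrict (Metric.ball (0 : R3) 1)) v N
    simp only [one_mul, lintegral_const, Measure.restrict_apply_univ] at h1
    have h2 := average mφ (mT c) volume v N
    have m2 : Measurable fun t => ∫⁻ y, ‖φ y‖ₑ ^ q * ‖trig s c (rho v N y + t)‖ₑ ^ q :=
      ((mφ.comp measurable_snd).mul ((mT c).comp
        (((continuous_rho v N).measurable.comp measurable_snd).add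
          measurable_fst))).lintegral_prod_right'
    have h3 : ∀ t, ∫⁻ y in Metric.ball (0 : R3) 1,
        ‖trig s (fun k => m (freq v k) * c k) (rho v N y + t)‖ₑ ^ q
        ≤ 2 ^ (q - 1) * (C * (∫⁻ y, ‖φ y‖ₑ ^ q * ‖trig s c (rho v N y + t)‖ₑ ^ q)
          + η ^ q * volume (Metric.ball (0 : R3) 1)) := by
      intro t
      have hs : ContDiff ℝ (⊤ : ℕ∞) fun y => φ y * ∑ k ∈ s, c k * mFourier k t
          * ee y (N • freq v k) :=
        (φ.smooth ⊤).mul (ContDiff.sum fun k _ => contDiff_const.mul (contDiff_ee _))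
      have h4 := h N hN ((hφ.mul_right).toSchwartzMap hs)
      obtain ⟨G, hG⟩ : ∃ G, G = 𝓕⁻ (fun ξ => m (N⁻¹ • ξ) * 𝓕 (fun y => φ y *
        ∑ k ∈ s, c k * mFourier k t * ee y (N • freq v k)) ξ) := ⟨_, rfl⟩
      have h5 : ∫⁻ y, ‖G y‖ₑ ^ q ≤ C * ∫⁻ y, ‖φ y‖ₑ ^ q * ‖trig s c (rho v N y + t)‖ₑ ^ q := by
        rw [hG]
        refine h4.trans (le_of_eq ?_)
        congr 1
        refine lintegral_congr fun y => ?_
        rw [trig_rho, ← ENNReal.mul_rpow_of_nonneg _ _ hq0.le, ← enorm_mul]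
        rfl
      calc _ ≤ ∫⁻ y in Metric.ball (0 : R3) 1, 2 ^ (q - 1) * (‖G y‖ₑ ^ q + η ^ q) := by
            refine setLIntegral_mono' measurableSet_ball fun y hy => ?_
            refine le_trans ?_ (ENNReal.rpow_add_le_mul_rpow_add_rpow _ _ hq)
            refine ENNReal.rpow_le_rpow ?_ hq0.le
            have h6 := mod_bound hm hB φ s (fun k => c k * mFourier k t) (freq v) hN.ne' y
            rw [← hG, hφ1 y hy, one_mul] at h6
            simp only [norm_mul, norm_mFourier, mul_one, ← mul_assoc] at h6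
            rw [trig_rho, hη, ← ofReal_norm, ← ofReal_norm,
              ← ENNReal.ofReal_add (norm_nonneg _) ((norm_nonneg _).trans h6)]
            refine ENNReal.ofReal_le_ofReal ?_
            linarith [norm_sub_norm_le (∑ k ∈ s, m (freq v k) * c k * mFourier k t
              * ee y (N • freq v k)) (G y), norm_sub_rev (G y) (∑ k ∈ s, m (freq v k) * c k
              * mFourier k t * ee y (N • freq v k))]
        _ = 2 ^ (q - 1) * ((∫⁻ y in Metric.ball (0 : R3) 1, ‖G y‖ₑ ^ q)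
              + η ^ q * volume (Metric.ball (0 : R3) 1)) := by
            rw [lintegral_const_mul' _ _ (by finiteness), lintegral_add_right _ measurable_const,
              lintegral_const, Measure.restrict_apply_univ]
        _ ≤ _ := by
            gcongr
            exact (setLIntegral_le_lintegral _ _).trans h5
    rw [← h1, ← h2]
    refine (lintegral_mono h3).trans (le_of_eq ?_)
    rw [lintegral_const_mul' _ _ (by finiteness), lintegral_add_right _ measurable_const,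
      lintegral_const_mul _ m2, lintegral_const, measure_univ, mul_one]
  have h1 : Tendsto (fun n : ℕ => ∑ k ∈ s, ‖c k‖ * err m φ (freq v k) ((n : ℝ) + 1)) atTop
      (𝓝 0) := by
    simpa using tendsto_finsetSum s fun k _ => (tendsto_err hm hB φ (freq v k)).const_mul ‖c k‖
  have h2 := (ENNReal.continuous_rpow_const (y := q)).continuousAt.tendsto.comp
    (ENNReal.tendsto_ofReal h1)
  rw [ENNReal.ofReal_zero, ENNReal.zero_rpow_of_pos hq0] at h2
  have h3 := ENNReal.Tendsto.mul_const h2 (b := volume (Metric.ball (0 : R3) 1))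
    (Or.inr measure_ball_lt_top.ne)
  rw [zero_mul] at h3
  have h4 := ENNReal.Tendsto.const_mul (a := 2 ^ (q - 1)) (h3.const_add
    (C * ((∫⁻ y, ‖φ y‖ₑ ^ q) * ∫⁻ t, ‖trig s c t‖ₑ ^ q ∂haar d))) (Or.inr (by finiteness))
  rw [add_zero] at h4
  exact ge_of_tendsto' h4 fun n => key _ (by positivity)

/-- **transference** -/
theorem transfer {p : ℝ≥0∞} (hp : 1 ≤ p) (hp' : p ≠ ∞) (hm : Continuous m) (hB : ∀ ξ, ‖m ξ‖ ≤ B)
    {C : ℝ≥0} (h : ∀ N : ℝ, 0 < N → ∀ f : 𝓢(R3, ℂ),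
      eLpNorm (𝓕⁻ fun ξ => m (N⁻¹ • ξ) * 𝓕 (f : R3 → ℂ) ξ) p volume ≤ C * eLpNorm f p volume) :
    ∃ K : ℝ≥0, ∀ (d : ℕ) (v : Fin d → R3) (s : Finset (Fin d → ℤ)) (c : (Fin d → ℤ) → ℂ),
      eLpNorm (trig s fun k => m (freq v k) * c k) p (haar d) ≤ K * eLpNorm (trig s c) p (haar d) := by
  have hp0 : p ≠ 0 := (zero_lt_one.trans_le hp).ne'
  have hq : 1 ≤ p.toReal := by simpa using ENNReal.toReal_mono hp' hp
  have hq0 : 0 < p.toReal := by linarith
  obtain ⟨φ, hφ, hφ1⟩ := exists_bump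
  have hI : ∫⁻ y, ‖φ y‖ₑ ^ p.toReal ≠ ∞ :=
    (lintegral_rpow_enorm_lt_top_of_eLpNorm_lt_top hp0 hp' (φ.memLp p volume).2).ne
  have hb0 : volume (Metric.ball (0 : R3) 1) ≠ 0 := (Metric.measure_ball_pos _ _ one_pos).ne'
  obtain ⟨K, hK⟩ : ∃ K : ℝ≥0∞, K = (volume (Metric.ball (0 : R3) 1))⁻¹ * (2 ^ (p.toReal - 1)
    * ((C : ℝ≥0∞) ^ p.toReal * ∫⁻ y, ‖φ y‖ₑ ^ p.toReal)) := ⟨_, rfl⟩
  have hKt : K ^ (1 / p.toReal) ≠ ∞ := by rw [hK]; finiteness
  refine ⟨(K ^ (1 / p.toReal)).toNNReal, fun d v s c => ?_⟩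
  have h1 := transfer_lintegral hq hm hB (C := (C : ℝ≥0∞) ^ p.toReal) (fun N hN f => by
    have h2 := ENNReal.rpow_le_rpow (h N hN f) hq0.le
    rwa [ENNReal.mul_rpow_of_nonneg _ _ hq0.le, eLpNorm_eq_lintegral_rpow_enorm_toReal hp0 hp',
      eLpNorm_eq_lintegral_rpow_enorm_toReal hp0 hp', one_div, ENNReal.rpow_inv_rpow hq0.ne',
      ENNReal.rpow_inv_rpow hq0.ne'] at h2) φ hφ hφ1 v s c
  rw [ENNReal.coe_toNNReal hKt, eLpNorm_eq_lintegral_rpow_enorm_toReal hp0 hp',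
    eLpNorm_eq_lintegral_rpow_enorm_toReal hp0 hp', ← ENNReal.mul_rpow_of_nonneg _ _ (by positivity)]
  refine ENNReal.rpow_le_rpow ?_ (by positivity)
  rw [hK, mul_assoc, ← ENNReal.mul_le_iff_le_inv hb0 measure_ball_lt_top.ne]
  simpa only [mul_assoc] using h1

end Vale.Agent.N117
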